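import Vale.Agent.P287D.I.Rs
import Vale.Agent.P287D.Ba.PosOn
import Vale.Agent.P287D.Ba.Mod
import Vale.Agent.P287D.Sh.St
import Vale.Agent.P287D.Sf.Df

/-!
# P287D: Riemann-Roch, parity and the genus formula for b-divisors on surfaces
-/

set_option linter.all false

open Set Filter Topology
open Vale.Agent.P297 (Place)
open Vale.Agent.P277Z Vale.Agent.P277Z.FI
open Vale.Agent.P287D.Ba Vale.Agent.P287D.I

noncomputable section

namespace Vale.Agent.P287D.Sr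

variable {K : Type} [Field K] [Algebra ℂ K] {M M' : Mdl 2 0 K} {D E : I.Div K}

theorem small {B : I.Div K} (hB : ∀ P, B P < 1) (E : I.Div K) :
    ∃ ε : ℝ, 0 < ε ∧ ε ≤ 1 ∧ ∀ P, (B + ε • E) P ≤ 1 := by
  have k : ∀ P, ∀ᶠ ε in 𝓝 (0 : ℝ), B P + ε * E P < 1 := fun P =>
    (by fun_prop : Continuous fun ε : ℝ => B P + ε * E P).continuousAt.eventually_lt
      continuousAt_const (by simpa using hB P)
  obtain ⟨ε, h1, h2⟩ := (((((eventually_all_finset E.support).2 fun P _ => k P).and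
    (eventually_le_nhds one_pos)).filter_mono nhdsWithin_le_nhds).and
    (self_mem_nhdsWithin (s := Ioi 0))).exists
  refine ⟨ε, h2, h1.2, fun P => ?_⟩
  by_cases e : P ∈ E.support
  · exact (h1.1 P e).le
  · simpa [Finsupp.notMem_support_iff.1 e] using (hB P).le

section low

variable (hM : M.Proj) (hM' : M'.Proj) (m : Mod M' M)
include hM hM' m

theorem h0_up (D : I.Div K) : F5.h0 M' (KM M' + M.pull M' D) = F5.h0 M (KM M + D) := by
  have k := KM_mod hM hM' m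
  rw [← (pc hM).h0_pull m hM' (KM M + D) k.2.le k.1, ← pl_apply (hbir hM hM' m) (_ + _), map_add,
    pl_apply, pl_apply]
  congr 1
  abel

theorem ch_up (D : I.Div K) :
    ch M' (KM M') (KM M' + M.pull M' D) = ch M (KM M) (KM M + D) := by
  have k := KM_mod hM hM' m
  have b := hbir hM hM' m
  have e : i2 M (KM M' - M.pull M' (KM M)) D = 0 := by
    rw [q2_eq_sum]
    exact Finset.sum_eq_zero fun P hP => mul_eq_zero_of_right _ (cons_off (k.2.le hP).2 1)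
  have e' : ∀ E, i2 M (M.pull M' E) D = i2 M E D := fun E =>
    num_congr (Fin.cases (dv_ext (F5.dv_tr _) (F5.dv_tr _) fun P hP => by
      rw [Fin.cons_zero, Fin.cons_zero, F5.tr_apply hP, F5.tr_apply hP, pull_pr (hloc hM) b hP])
      fun _ => rfl)
  rw [ch, ch, add_sub_cancel_left, add_sub_cancel_left, ((pc hM).mod m hM').q2_comm,
    (pc hM).i2_proj m hM', (pc hM).q2_comm _ D]
  simp only [map_add, map_sub, LinearMap.add_apply, LinearMap.sub_apply, e'] at e ⊢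
  linarith

omit hM' m in
theorem adj_le (hD : D ∈ F5.Dg.Gd M) (h1 : M.Nef D) (h2 : I.Big M D) :
    chi M + ch M (KM M) (KM M + D) ≤ F5.h0 M (KM M + D) :=
  (pc hM).rr2_le (KM_isCan hM) (add_mem ⟨KM_dv hM, KM_int hM⟩ hD) hD.1 h1 (by
    rw [sub_add_cancel_left, map_neg, LinearMap.neg_apply, neg_lt_zero]
    exact (pc hM).q2_big (fun i => i.elim0) hD.1 h1 h2)

theorem chi_le : chi M' ≤ chi M := by
  obtain ⟨H, hH⟩ := (pc hM).pol
  have b := hbir hM hM' m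
  have k1 := adj_le hM' ⟨dv_pull H, pull_int b hH.int⟩ (b.nef H (pol_nef (hpos hM) hH))
    ((Big.of_amp hH.dv hH.amp).pull (pc hM) m hM')
  rw [h0_up hM hM' m, ch_up hM hM' m, (pc hM).rr2' (KM_isCan hM)
    (add_mem ⟨KM_dv hM, KM_int hM⟩ ⟨hH.dv, hH.int⟩) (by simpa using hH.amp)] at k1
  exact_mod_cast (add_le_add_iff_right _).1 k1

omit hM' m in
/-- **Riemann-Roch** for the adjoint of a nef and big divisor -/
theorem rr_nb (hD : D ∈ F5.Dg.Gd M) (h1 : M.Nef D) (h2 : I.Big M D) :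
    (F5.h0 M (KM M + D) : ℝ) = chi M + ch M (KM M) (KM M + D) := by
  obtain ⟨M', m, U, E, h', u1, u2, -, -, e1, e2, e3⟩ := kod hM hD.1 h1 h2 finite_empty
  obtain ⟨ε, a1, a2, a3⟩ := small (B := 0) (fun _ => one_pos) E
  rw [zero_add] at a3
  have k := (pc h').rr2 (B := ε • E) ⟨KM_isCan h', u1, u2⟩ ⟨fun P hP => e2
    (Finsupp.support_smul hP), fun P => ⟨smul_nonneg a1.le e1 P, a3 P⟩⟩
    (add_mem ⟨KM_dv h', KM_int h'⟩ ⟨dv_pull D, pull_int (hbir hM h' m) hD.2⟩)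
    (by rw [add_sub_cancel_left]; exact e3 ε a1 a2)
  rw [h0_up hM h' m, ch_up hM h' m] at k
  have k1 : (chi M' : ℝ) ≤ chi M := by exact_mod_cast chi_le hM h' m
  linarith [adj_le hM hD h1 h2]

/-- the Euler characteristic is a birational invariant -/
theorem chi_mod : chi M' = chi M := by
  obtain ⟨H, hH⟩ := (pc hM).pol
  have b := hbir hM hM' m
  have k1 := rr_nb hM' ⟨dv_pull H, pull_int b hH.int⟩ (b.nef H (pol_nef (hpos hM) hH))
    ((Big.of_amp hH.dv hH.amp).pull (pc hM) m hM')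
  rw [h0_up hM hM' m, ch_up hM hM' m, rr_nb hM ⟨hH.dv, hH.int⟩ (pol_nef (hpos hM) hH)
    (Big.of_amp hH.dv hH.amp)] at k1
  exact_mod_cast ((add_left_inj _).1 k1).symm

end low

theorem I2_trc (hM : M.Proj) {Z : BD K} (h : Trc M Z E) (D : I.Div K) :
    I2 Z (bar M D) = i2 M E D :=
  I_trc' hM (D := ![E, D]) h (Fin.cases rfl fun i => i.elim0)

theorem I2_bar (hM : M.Proj) (E D : I.Div K) : I2 (bar M E) (bar M D) = i2 M E D :=
  (I2_trc hM (bar_tr hM E ▸ trc_bar hM (F5.dv_tr E)) D).trans (q2_tr _ E D)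

theorem on_iff_pos (hM : M.Proj) (P : Pl K) (D : I.Div K) :
    On 1 (bar M D) P ↔ 0 < i2 M (Finsupp.single P.toPlace 1) D := by
  rw [On, vol_place hM, i2_apply]
  exact iff_of_eq (congrArg (fun v => 0 < num M v)
    (funext (Fin.cases rfl (Fin.cases rfl fun i => i.elim0))))

/-- **parity** -/
theorem parity (hK : FF K 2) {β : BD K} (h : β ∈ CarZ K) : ∃ z : ℤ, I2 (cn K 2 + β) β = 2 * z := by
  obtain ⟨M, D, hM, h1, rfl, h2⟩ := com1 hK (carZ_le h)
  rw [I2_trc hM ((trc_cn hM).add (trc_bar hM h1))]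
  exact (pc hM).parity (KM_isCan hM) ⟨h1, h2 h⟩

/-- **the genus formula** on a smooth model -/
theorem genus (hM : M.Proj) {P : Pl K} (h : M.Pr P.toPlace) : ∃ δ : ℕ,
    i2 M (KM M + Finsupp.single P.toPlace 1) (Finsupp.single P.toPlace 1) =
      2 * pg P.κ 1 - 2 + 2 * δ := by
  obtain ⟨M', ⟨m⟩, h', hs⟩ := Bm.plm_snc hM (finite_singleton P)
  rw [image_singleton] at hs
  obtain ⟨S, s, a, -, b⟩ := Bm.sub h' P hs
  exact (pc hM).genus (KM_isCan hM) h m h' (Bm.subM h' (hs.1 _ rfl) s a b) hs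

/-- adjunction for a smooth curve -/
theorem genus_sm (hM : M.Proj) {P : Pl K} (hs : M.Snc {P.toPlace}) :
    i2 M (KM M + Finsupp.single P.toPlace 1) (Finsupp.single P.toPlace 1) = 2 * pg P.κ 1 - 2 := by
  obtain ⟨S, s, a, -, b⟩ := Bm.sub hM P hs
  rw [(pc hM).q2_comm]
  exact (pc hM).adj (KM_isCan hM) (Bm.subM hM (hs.1 _ rfl) s a b) hs

/-- **GenM** -/
theorem genM : Sf.GenM := fun K _ _ hK T B hT hB hc => by
  obtain ⟨M₀, h₀⟩ := Bm.exists_mdl hK
  obtain ⟨M, -, U, hM, -, a, -, b, -, c⟩ := com h₀ hB hc hT finite_empty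
  obtain ⟨H, s, d, e, -⟩ := exists_pol hM
  refine ⟨s, bar M (KM M), ?_⟩
  rw [e]
  refine ⟨Md.term hM d.dv d.amp, bar_carZ hM (KM_int hM),
    fun P k => (on_amp hM d.amp d.dv).2 (a.1 _ (b P k)),
    fun β k => let ⟨D, _, f, _⟩ := c β k; f ▸ Md.dsc_bar hM d.dv d.amp D,
    Md.one_le_dsc hM d.dv d.amp, fun P k => ⟨_, bar_carZ hM (IsInt.single _),
      Md.hull_trc hM d.dv d.amp (trc_δ (pr_of_on hM k)), ?_⟩⟩
  obtain ⟨δ, g⟩ := genus hM (pr_of_on hM k)
  rw [I2_trc hM (trc_δ (pr_of_on hM k)), I2_trc hM (trc_δ (pr_of_on hM k))]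
  rw [(pc hM).q2_comm, map_add] at g
  linarith [Nat.cast_nonneg (α := ℝ) δ]

theorem chi_ft {M₀ : Mdl 2 0 K} (h₀ : M₀.Proj) (h : FT K 1) : chi M₀ = 1 := by
  obtain ⟨Λ, Γ, l1, l2, -, g2, g3, g4, g5⟩ := h
  obtain ⟨M, m, U, D, E, hM, u1, u2, u3, -, u4, u5, d1, d2, d3, d4, -, e1, e2, e3⟩ :=
    Nb.nb h₀ g4 g5 (finite_singleton Λ) (by rintro _ rfl; exact l1.car) finite_empty
      (KM M₀).support.finite_toSet
  obtain ⟨L, a1, rfl, -, -, a2⟩ := u5 Λ rfl
  replace a2 := a2 l1.nef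
  have h := pc hM
  have a3 := (big_bar hM a1).1 l2
  have t : Trc M (dsc 2 Γ) (KM M + D) := by
    rw [dsc, sub_eq_add_neg, d2]
    exact (trc_cn hM).add (trc_bar hM d1)
  have p0 : ∀ Q, 0 ≤ i2 M (Finsupp.single Q 1) L := fun Q =>
    h.i2_eff (F5.eff_of_nonneg (Finsupp.single_nonneg.2 zero_le_one)) a1 a2
  have p1 : ∀ Q, 0 < (KM M + D) Q → i2 M (Finsupp.single Q 1) L = 0 := fun Q hQ => by
    obtain ⟨P, rfl⟩ := Bm.pl_of_pr hM (t.1 Q (Finsupp.mem_support_iff.2 hQ.ne'))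
    refine le_antisymm (le_of_not_gt fun c => hQ.not_ge ?_) (p0 _)
    have k := (on_iff_pos hM P L).2 c
    exact t.2 P (pr_of_on hM k) ▸ g2 P k
  have p2 : ∀ Q, -1 < (KM M + D) Q := fun Q => by
    by_cases c : M.Pr Q
    · obtain ⟨P, rfl⟩ := Bm.pl_of_pr hM c
      exact t.2 P c ▸ g3 P
    · rw [dv_iff.1 t.1 Q c]; exact neg_one_lt_zero
  have p3 : ((KM M + D).support : Set (Place K)) ⊆ U := fun Q hQ => by
    by_contra c
    have k := KM_mod h₀ hM m
    have c1 : Q ∉ Exc M M₀ := fun e => c (u3 e)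
    have c2 := Finsupp.notMem_support_iff.1 fun e => c1 (k.2.le e)
    have c3 : M₀.pull M (KM M₀) Q = 0 := by_contra fun e => (pull_supp (hloc h₀) (hbir h₀ hM m) _ e).elim
      (fun e => c (u4 Q (Finsupp.mem_support_iff.2 e) (t.1 Q hQ))) c1
    rw [Finsupp.sub_apply, c3, sub_zero] at c2
    exact Finsupp.mem_support_iff.1 hQ (by
      rw [Finsupp.add_apply, c2, Finsupp.notMem_support_iff.1 fun e => c (d3 e), add_zero])
  rw [← chi_mod h₀ hM m]
  refine le_antisymm ?_ ?_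
  · have k := h.rr2_le (KM_isCan hM) (zero_mem _) a1 a2 (by
      have b1 : i2 M (KM M + D) L ≤ 0 := by
        rw [q2_eq_sum]
        refine Finset.sum_nonpos fun Q _ => ?_
        rcases le_or_gt ((KM M + D) Q) 0 with c | c
        · exact mul_nonpos_of_nonpos_of_nonneg c (p0 Q)
        · exact (mul_eq_zero_of_right _ (p1 Q c)).le
      have b2 : 0 < i2 M D L := cons_big h ((big_bar hM d1).1 (d2 ▸ g5))
        (Fin.cases ⟨a1, a2, a3⟩ fun i => i.elim0)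
      rw [map_add, LinearMap.add_apply] at b1
      rw [sub_zero]
      linarith)
    have k1 : (F5.h0 M 0 : ℝ) ≤ 1 := by exact_mod_cast h.h0_zero_le
    rw [ch, map_zero, zero_div, add_zero] at k
    exact_mod_cast k.trans k1
  generalize hA : KM M + D = A at t p1 p2 p3
  have f0 : ∀ Q, (-fl (-A)) Q = ⌈A Q⌉ := fun Q => by
    change -((⌊-A Q⌋ : ℤ) : ℝ) = _
    rw [Int.floor_neg, Int.cast_neg, neg_neg]
  have f1 := neg_mem (fl_gd (F5.dv_neg t.1))
  generalize -fl (-A) = F at f0 f1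
  have f2 : 0 ≤ F := fun Q => by
    have : (-1 : ℤ) < ⌈A Q⌉ := Int.lt_ceil.2 (by exact_mod_cast p2 Q)
    rw [f0, Finsupp.zero_apply]
    exact_mod_cast (by omega : (0 : ℤ) ≤ ⌈A Q⌉)
  obtain ⟨ε, b1, b2, b3⟩ := small (B := F - A) (fun Q => by
    rw [Finsupp.sub_apply, f0]
    linarith [Int.ceil_lt_add_one (A Q)]) E
  have k := h.rr2 (B := F - A + ε • E) ⟨KM_isCan hM, u1, u2⟩ ⟨fun Q hQ => by
    by_contra c
    refine Finsupp.mem_support_iff.1 hQ ?_
    simp [f0, Finsupp.notMem_support_iff.1 fun e => c (p3 e),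
      Finsupp.notMem_support_iff.1 fun e => c (e2 e)], fun Q => ⟨add_nonneg
      (sub_nonneg.2 (f0 Q ▸ Int.le_ceil (A Q))) (smul_nonneg b1.le e1 Q), b3 Q⟩⟩ f1 (by
    rw [show F - KM M - (F - A + ε • E) = D - ε • E by rw [← hA]; abel]
    exact e3 ε b1 b2)
  have k1 := h.ch_nonpos (KM_isCan hM) (h.q2_big (fun i => i.elim0) a1 a2 a3) f1 f2 fun Q hQ =>
    p1 Q (lt_of_not_ge fun c => hQ (le_antisymm (by
      rw [f0]; exact_mod_cast Int.ceil_le.2 (by exact_mod_cast c)) (f2 Q)))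
  have k2 : F5.h0 M F ≠ 0 := fun e => by
    haveI := h.fin F
    have := Submodule.finrank_eq_zero.1 e
    exact one_ne_zero ((Submodule.eq_bot_iff _).1 this 1 (one_mem_H0 f2))
  have k3 : (1 : ℝ) ≤ F5.h0 M F := by exact_mod_cast Nat.one_le_iff_ne_zero.2 k2
  have k4 : (1 : ℝ) ≤ chi M := by linarith
  exact_mod_cast k4

/-- **RR2** -/
theorem rr2 : Sh.RR2 := fun K _ _ hK => by
  obtain ⟨M₀, h₀⟩ := Bm.exists_mdl hK
  refine ⟨chi M₀, fun β h1 A h2 h3 => ?_, fun β h1 h2 h3 => ?_, chi_ft h₀⟩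
  · obtain ⟨M, m, U, D, hM, -, -, -, -, -, k⟩ := comN h₀ (β := ![β, A])
      (Fin.cases (carZ_le h1) (Fin.cases h2.car fun i => i.elim0)) finite_empty finite_empty
    obtain ⟨a1, a2, -, a3, -⟩ := k 0
    obtain ⟨b1, b2, -, -, b3⟩ := k 1
    have a4 := a3 h1
    have b4 := b3 h2
    change β = _ at a2
    change A = _ at b2
    rw [a2, b2, I2_trc hM ((trc_cn hM).sub (trc_bar hM a1))] at h3
    rw [a2, I2_trc hM ((trc_bar hM a1).sub (trc_cn hM)), h0_bar hM, ← chi_mod h₀ hM m]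
    exact (pc hM).rr2_le (KM_isCan hM) ⟨a1, a4⟩ b1 b4 h3
  · obtain ⟨M, m, U, D, hM, -, -, -, -, -, k⟩ := comN h₀ (β := fun _ : Unit => β)
      (fun _ => carZ_le h1) finite_empty finite_empty
    obtain ⟨a1, a2, -, a3, a4⟩ := k ()
    have t := (trc_cn hM).add (trc_bar hM a1)
    have a5 := rr_nb hM ⟨a1, a3 h1⟩ (a4 h2) ((big_bar hM a1).1 (a2 ▸ h3))
    rw [a2, I2_trc hM t, t.h0_eq hM (by rw [map_add]; exact add_le_add_left (bar_le_cn hM) _),
      ← chi_mod h₀ hM m, a5, ch, add_sub_cancel_left, (pc hM).q2_comm]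

end Vale.Agent.P287D.Sr
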